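import Vale.Agent.P287D.In.Int
import Vale.Agent.P287D.Ad.Main
import Vale.Agent.P287D.Va.Fld
import Vale.Agent.P287D.Mm.St
import Vale.Agent.P287D.Gm.Ffs

/-!
# P287D: centres of composite places, integrality in codimension two
-/

open Set

noncomputable section

namespace Vale.Agent.P287D.Ea

open In

variable {n : ℕ} {K : Type} [Field K] [Algebra ℂ K] {Λ G Γ β : BD K} {P R : Pl K}

/-- `R` has the centre of `Q` on `V Λ` -/
structure Fc (Λ : BD K) (P : Pl K) (Q : Pl P.κ) (R : Pl K) : Prop where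
  cle : CLe Λ R P
  cmp : ∀ G, Rep Λ G → G P = 0 → G R ≤ res P G Q ∧ (0 < res P G Q → 0 < G R)

theorem exists_fc (hK : FF K (n + 1)) (P : Pl K) (Q : Pl P.κ) (hΛ : Λ ∈ Car K) {T : Set (BD K)}
    (hT : T.Finite) (hc : T ⊆ Car K) : ∃ R, Fol P Q T R ∧ Fc Λ P Q R :=
  let ⟨R, a, _, b, c, _⟩ := a2 n K hK P Q T Λ 0 hT hc hΛ
  ⟨R, a, b, c⟩

theorem res_rep (h : Hy) (hK : FF K (n + 1)) (hΛ : Λ ∈ Car K) (r : Rep Λ G) (e : G P = 0) :
    Rep (res P Λ) (res P G) :=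
  ⟨Aj.res_nonneg hK P (r.car hΛ) r.1 e,
    h.res_sub hK P (r.car hΛ) hΛ ▸ h.res_prn hK P r.2⟩

theorem dim_le (hF : FLD) (hK : FF K n) (Λ : BD K) : dim Λ ≤ n :=
  let ⟨_, a, b⟩ := Gm.ff_sub hK (fld Λ)
  Gm.ff_uniq b (hF.ff n K hK Λ) ▸ a

/-- a member of the system contains a centre of codimension one -/
theorem cut (h : Hy) (hF : FLD) (hK : FF K n) (hΛ : Smp Λ) (r : Rep Λ G) {k : ℕ}
    (hk : k + 1 ≤ dim Λ) : ∃ x : Pl K, 0 < G x ∧ k ≤ cd Λ x := by
  have l := hk.trans (dim_le hF hK Λ)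
  obtain ⟨n, rfl⟩ : ∃ m, n = m + 1 := ⟨n - 1, by omega⟩
  obtain ⟨s, -, hs⟩ := exists_big hK
  let b : Fin n → BD K := fun i => if i.1 < k then Λ else mx s
  have hb : ∀ i, Nef (b i) := fun i => by
    simp only [b]
    split_ifs
    exacts [hΛ.nef, nef_mx s]
  have p := (hF.nd _ K hK Λ (mx s) (k + 1) hΛ (nef_mx s) hs l).2 hk
  have e : (fun i : Fin (n + 1) => if i.1 < k + 1 then Λ else mx s) = Fin.cons Λ b :=
    funext (Fin.cases (by simp) fun i => by simp [b])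
  rw [e, ← h.cons_congr hK (h.isb n K hK _ hΛ.car) r.2 fun i => (hb i).car, I_cons] at p
  obtain ⟨x, hx⟩ : ∃ x, G x * cf x b ≠ 0 := by
    by_contra! c
    exact p.ne' (finsum_eq_zero_of_forall_eq_zero c)
  have hx' := h.rsd n K hK x
  obtain ⟨u, -, hu⟩ := exists_big hx'
  have a := h.res_nef hK x (nef_mx s)
  refine ⟨x, (r.1 x).lt_of_ne' (left_ne_zero_of_mul hx), (hF.nd n _ hx' _ (mx u + res x (mx s)) k
    (h.res_smp hK x hΛ) ((nef_mx u).add a) (hu.add_nef a) (by omega)).1 ?_⟩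
  refine ((h.cf_nef hK x hb).lt_of_ne' (right_ne_zero_of_mul hx)).trans_le
    ((h.row n _ hx').mono (fun i => h.res_nef hK x (hb i)) (fun i => ?_) fun i => ?_)
  · split_ifs
    exacts [h.res_nef hK x hΛ.nef, (nef_mx u).add a]
  · simp only [b]
    split_ifs
    · simpa using Psef.zero
    · simpa using (nef_mx u).psef

/-- the dimension of the centre of a composite place -/
theorem cd_fc (h : Hy) (hF : FLD) (k : ℕ) : ∀ {n : ℕ} {K : Type} [Field K] [Algebra ℂ K],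
    FF K (n + 1) → ∀ {Λ : BD K} {P : Pl K} {Q : Pl P.κ} {R : Pl K}, Smp Λ → Fc Λ P Q R →
      k ≤ cd (res P Λ) Q → k ≤ cd Λ R := by
  induction k with
  | zero => exact fun _ _ _ _ _ _ _ _ => Nat.zero_le _
  | succ k ih =>
    intro n K _ _ hK Λ P Q R hΛ f hk
    have hP := h.rsd n K hK P
    cases n with
    | zero => exact (Bm.no_pl hP Q).elim
    | succ n =>
    obtain ⟨G, r, z⟩ := hΛ.exists_rep (toFinite {P, R})
    have zP := z P (by simp)
    have zR := z R (by simp)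
    have s₁ := h.res_smp hK P hΛ
    have r₁ := res_rep h hK hΛ.car r zP
    have zQ : res P G Q = 0 :=
      le_antisymm (not_lt.1 fun c => ((f.cmp G r zP).2 c).ne' zR) (r₁.1 Q)
    obtain ⟨x, x1, x2⟩ := cut h hF (h.rsd n _ hP Q) (h.res_smp hP Q s₁)
      (res_rep h hP s₁.car r₁ zQ) hk
    obtain ⟨Q', -, g⟩ := exists_fc hP Q x s₁.car finite_empty (empty_subset _)
    obtain ⟨R', -, g'⟩ := exists_fc hK P Q' hΛ.car finite_empty (empty_subset _)
    have a := ih hK hΛ g' (ih hP s₁ g x2)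
    have c : CLe Λ R' R := fun G' r' p => by
      rcases (r'.1 P).eq_or_lt with e | e
      · exact (g'.cmp G' r' e.symm).2 (g.cle _ (res_rep h hK hΛ.car r' e.symm)
          (p.trans_le (f.cmp G' r' e.symm).1))
      · exact g'.cle G' r' e
    obtain ⟨u, v⟩ := (hF.cen _ K hK Λ R' R hΛ).2.2 c
    refine (a.trans_lt (u.lt_of_ne fun e => ?_) :)
    exact (v e G r ((g'.cmp G r zP).2 ((g.cmp _ r₁ zQ).2 x1))).ne' zR

/-- terminal varieties: restrictions are integral in codimension two -/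
theorem trm_res (h : Hy) (hF : FLD) (hT : Mm.TRM) (hK : FF K (n + 2)) (t : Term (n + 1) Λ Γ)
    (d : Dsc Λ β) (i : ∀ Q, On (n + 1) Λ Q → ∃ z : ℤ, β Q = z) (P : Pl K) (Q : Pl P.κ)
    (hQ : n ≤ cd (res P Λ) Q) : ∃ z : ℤ, res P β Q = z := by
  obtain ⟨R, a, f⟩ := exists_fc hK P Q t.smp.car (finite_singleton β)
    (singleton_subset_iff.2 d.car)
  have c := cd_fc h hF n hK t.smp f hQ
  obtain ⟨z, hz⟩ := hT n K hK Λ Γ β R t d i c
  obtain ⟨w, hw⟩ := hT n K hK Λ Γ β P t d i (c.trans ((hF.cen _ K hK Λ R P t.smp).2.2 f.cle).1)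
  have e := a.2 β rfl
  exact ⟨z - w * R.ord P.t, by push_cast; rw [← hz, ← hw, e]; ring⟩

theorem trm_on (h : Hy) (hF : FLD) (hT : Mm.TRM) (hK : FF K (n + 2)) (t : Term (n + 1) Λ Γ)
    (d : Dsc Λ β) (i : ∀ Q, On (n + 1) Λ Q → ∃ z : ℤ, β Q = z) (P : Pl K) (Q : Pl P.κ)
    (hQ : On n (res P Λ) Q) : ∃ z : ℤ, res P β Q = z :=
  trm_res h hF hT hK t d i P Q
    ((hF.cen n _ (h.rsd _ K hK P) _ Q Q (h.res_smp hK P t.smp)).1.1 hQ).ge

end Vale.Agent.P287D.Ea
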