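import Vale.Agent.P287D.Ea.Cd
import Vale.Agent.P287D.Ad.Eff
import Vale.Agent.P287D.Sf.Kl
import Vale.Agent.P287D.Pr.Neg
import Vale.Agent.P287D.Pg.Gr
import Vale.Agent.P287D.Fs.Mod

/-!
# P287D: a surface of type S on a terminal Fano threefold
-/

open Set

noncomputable section

namespace Vale.Agent.P287D.Ea

open In

variable {n : ℕ} {K : Type} [Field K] [Algebra ℂ K] {L B G Γ β : BD K} {τ : Pl K}

theorem prn_of_dim (hF : FLD) (hK : FF K n) (h : Smp B) (e : dim B = 0) : B ∈ Prn K := by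
  obtain ⟨B₀, -, -, k⟩ := hF.down n K hK B h
  have z : pb (inc (fld B)) B₀ = 0 := funext fun P =>
    dif_neg fun ⟨Q, _⟩ => Bm.no_pl (e ▸ hF.ff n K hK B) Q
  rwa [z, sub_zero] at k

theorem prn_of_dsc (hK : FF K n) (h : B ∈ Prn K) (d : Dsc B β) : β ∈ Prn K := by
  have k : ∀ {γ}, Dsc B γ → Eff γ := fun ⟨ε, e, a, _⟩ =>
    .of_smul e (a.eff.congr (by simpa using h))
  exact Fs.eff_anti hK (k d) (k d.neg)

/-- intersection numbers see only the trace -/
theorem trace_nn (h : Hy) (hK : FF K (n + 1)) (hL : Smp L) {b : Fin n → BD K}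
    (hb : ∀ i, Nef (b i) ∧ Dsc L (b i)) {Z : BD K} (hZ : ∀ P, On n L P → 0 ≤ Z P) :
    0 ≤ I (n + 1) K (Fin.cons Z b) := finsum_nonneg fun P => by
  by_cases k : On n L P
  · exact mul_nonneg (hZ P k) (h.cf_nef hK P fun i => (hb i).1)
  · exact (mul_eq_zero_of_right _ (h.exc hK k hL fun i => (hb i).2)).ge

/-- the degree of a component of the boundary -/
theorem deg_le (h : Hy) (hK : FF K (n + 1)) (t : Term n L G) {b : Fin n → BD K}
    (hb : ∀ i, Nef (b i) ∧ Dsc L (b i)) (hΓ : Γ ∈ Car K) (bd : Bdy n L Γ) (p : Psef (-Γ)) {c : ℝ}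
    (hc : dsc (n + 1) Γ τ ≤ -c) : c * cf τ b ≤ I (n + 1) K (Fin.cons (-G) b) := by
  have i := h.isb n K hK
  have iΓ := i _ (neg_mem hΓ)
  have iG := i _ (neg_mem t.hull.1.car)
  have ic := IsB.smul (isB_δ (n := n) τ) c
  have cb := fun j => (hb j).1.car
  have a := h.cons_nn hK iΓ p fun j => (hb j).1
  have e := trace_nn h hK t.smp hb (Z := -G - -Γ - c • τ.δ) fun P k => by
    have u := bd P k
    have v := t.hull.2 P k
    simp only [dsc, Pi.sub_apply, Pi.neg_apply, Pi.smul_apply, smul_eq_mul] at u hc ⊢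
    rcases eq_or_ne P τ with rfl | w
    · rw [Pl.δ_self]
      linarith
    · rw [Pl.δ_ne w]
      linarith
  rw [h.cons_sub hK (IsB.sub iG iΓ) ic cb, h.cons_sub hK iG iΓ cb, cons_smul, I_δ] at e
  linarith

/-- **the first end** -/
theorem enda (h : Hy) (hR : RES) (hF : FLD) (hT : Mm.TRM) (h3 : A3) (hK : FF K 3)
    (R : Sf.Rows τ.κ) {d : ℕ} {H : BD τ.κ} {f : τ.κ} (s : IsS d τ.κ H f) (t : Term 2 L G)
    (a : AmpOn L (-G)) (o : On 2 L τ) (hΓ : Γ ∈ Car K) (bd : Bdy 2 L Γ) (p : Psef (-Γ))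
    (c : dsc 3 Γ τ ≤ -(1 / 2)) (u : Hull 2 L τ.δ β) {x : ℝ} (e : β - x • G ∈ Prn K) {v : ℝ}
    (hv : vol 3 (-G) ≤ v) : (d : ℝ) ≤ 9 * (2 * v + (2 * v) ^ 2) := by
  have bG := a.big_iff.1 t.big
  have vp := h.vol_pos hK a.nef bG
  rcases d.eq_zero_or_pos with rfl | hd
  · have : 0 < v := vp.trans_le hv
    exact Nat.cast_zero.trans_le (by positivity)
  have hP := h.rsd 2 K hK τ
  have cG := t.hull.1.car
  have oi : ∀ {P}, On 2 L P ↔ On 2 (-G) P := Pr.on_iff hR hK t.smp a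
  have sN := h.res_smp hK τ a.smp
  have nN := R.nn_smp sN
  have bN := (hR.on 2 K hK _ τ a.smp).1 (oi.1 o)
  have e1 : I2 (res τ (-G)) (res τ (-G)) = cf τ fun _ : Fin 2 => -G :=
    congrArg (I 2 τ.κ) (funext fun i => by fin_cases i <;> rfl)
  have e2 := deg_le h hK t (b := fun _ => -G) (fun _ => ⟨a.nef, a.1⟩) hΓ bd p c
  have e3 : (cf τ fun _ : Fin 2 => -G) = -x * vol 3 (-G) := by
    rw [h.cf_hull hK t.smp (fun _ => a.1) u, vol_succ, ← cons_smul]
    exact h.cons_congr hK (h.isb 2 K hK _ (Submodule.smul_mem _ _ a.car)) (by simpa using e)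
      fun _ => a.car
  rw [← vol_succ] at e2
  have x2 : -x ≤ 2 := le_of_mul_le_mul_right (by linarith) vp
  have cβ := add_mem cG u.1.car
  obtain ⟨a1, a2, -⟩ := a1 2 K hK τ _ cβ
  have bs := h3 1 K hK (-G) τ a.smp bG (oi.1 o) (G + β) (a.dsc_iff.1 (t.hull.1.add u.1))
    (fun P k => by
      have := t.hull.2 P (oi.2 k)
      have := u.2 P (oi.2 k)
      have := τ.δ_nonneg P
      simp only [dsc, Pi.sub_apply, Pi.add_apply, Pi.zero_apply] at *
      linarith) (by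
      have := t.hull.2 τ o
      have := (u.2 τ o).trans τ.δ_self
      simp only [dsc, Pi.sub_apply, Pi.add_apply] at *
      linarith)
  have nf : Nef (-G - (G + β)) := (a.nef.smul (c := 2 + x) (by linarith)).congr (by
    have w : -G - (G + β) - (2 + x) • -G = -(β - x • G) := by module
    exact w ▸ neg_mem e)
  have ps : Psef ((1 : ℝ) • res τ (-G) - adj 2 τ (G + β)) := (h.res_nef hK τ nf).psef.congr (by
    rw [h.res_sub hK τ a.car cβ, one_smul, sub_sub_sub_cancel_left]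
    simpa using neg_mem a2)
  have im : Sf.InM (res τ (-G)) := ⟨_, by simp, fun Q k =>
    trm_on h hF hT hK t a.1 (fun P q =>
      let ⟨z, w⟩ := Pg.isZ_cn 3 P
      ⟨-z, by rw [Pi.neg_apply, t.hull.2 P q, w, Int.cast_neg]⟩) τ Q
      (Pr.on_mono hR hP sN (h.res_smp hK τ t.smp) (h.res_dsc hK τ a.1) (Sf.on_iff.2 k))⟩
  have k := (s.ps R hd).kla R nN bN im (R.adj_of_bdy nN a1 ps bs) (by norm_num)
  have z := R.eff_nn bN.eff (R.isb _ nN.car) nN
  rw [e1] at k z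
  have w : (cf τ fun _ : Fin 2 => -G) ≤ 2 * v := by linarith
  have := pow_le_pow_left₀ z w 2
  have := s.deg
  simp only [one_mul, one_pow, mul_one] at k
  linarith

/-- the first end, for the output of the program -/
theorem enda' (h : Hy) (hR : RES) (hF : FLD) (hT : Mm.TRM) (h3 : A3) (hK : FF K 3)
    (R : Sf.Rows τ.κ) {d : ℕ} {H : BD τ.κ} {f : τ.κ} (s : IsS d τ.κ H f) (m : Mm.Mf 2 L G B)
    (b : dim B = 0) (o : On 2 L τ) (hΓ : Γ ∈ Car K) (bd : Bdy 2 L Γ) {T : BD K} (dT : Dsc B T)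
    {y : ℝ} (p : Psef (y • T - Γ)) (c : dsc 3 Γ τ ≤ -(1 / 2)) (u : Mm.Rk1 2 L G B τ.δ β) {v : ℝ}
    (hv : ∀ G : BD K, Smp (-G) → Big (-G) → 0 ≤ dsc 3 G → Bdy 2 (-G) G → vol 3 (-G) ≤ v) :
    (d : ℝ) ≤ 9 * (2 * v + (2 * v) ^ 2) := by
  have z := prn_of_dim hF hK m.smp b
  have w : ∀ a b : BD K, -a = -b - (a - b) := fun a b => by abel
  obtain ⟨r, a⟩ := m.amp
  obtain ⟨x, e⟩ := u.2
  replace a : AmpOn L (-G) := a.congr (w _ _ ▸ neg_mem (Submodule.smul_mem _ r z))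
  have i : ∀ P, On 2 L P → dsc 3 G P = 0 := fun P k => sub_eq_zero.2 (m.term.hull.2 P k).symm
  exact enda h hR hF hT h3 hK R s m.term a o hΓ bd
    (p.congr (w _ _ ▸ neg_mem (Submodule.smul_mem _ y (prn_of_dsc hK z dT)))) c u.1
    (prn_of_dsc hK z e) (hv G a.smp (a.big_iff.1 m.term.big)
      (fun P => (em (On 2 L P)).elim (fun k => (i P k).ge) fun k => (m.term.pos P k).le)
      fun P k => (i P ((Pr.on_iff hR hK m.term.smp a).2 k)).le)

end Vale.Agent.P287D.Ea
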