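import Vale.Agent.P287D.Ea.A
import Vale.Agent.P287D.Oe.St
import Vale.Agent.P287D.Ba.Hy

/-!
# P287D: the rows `ITG` and `End 0`
-/

noncomputable section

namespace Vale.Agent.P287D.Ea

theorem itg_of (hF : FLD) (hT : Mm.TRM) : Oe.ITG := fun _ _ _ hK _ _ _ τ t _ d i Q q =>
  trm_on In.hy hF hT hK t d i τ Q q

theorem end0_of (ax : Oe.Ax) (hV : Oe.VB 2) (hT : Mm.TRM) : Oe.End 0 := by
  obtain ⟨v, hv⟩ := hV
  refine ⟨⌊9 * (2 * v + (2 * v) ^ 2)⌋₊ + 1, fun d hd K _ _ τ ⟨Y, G, B, T, Γ, β, s, m, b⟩ H f k => ?_⟩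
  have := enda' In.hy ax.res ax.fld hT ax.a3 m.ff (ax.rows _ k.ff) k m.mf b m.on m.car m.bdy m.dT
    (y := 1) (by simpa using m.smp.psef) (by linarith [m.cf]) ⟨m.hull, -s, by simpa using m.rk⟩
    (hv K m.ff)
  exact absurd (Nat.le_floor this) (by omega)

end Vale.Agent.P287D.Ea
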